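import Crest.Agent.N336.P.Defs
import Crest.Agent.N336.Q.Cond

/-!
# Row 336, compression lemma: interface of the two halves (helper49)

`ApxStmt` random approximants of a gate; `PFStmt` product form of a column;
`cl_of : ApxStmt → PFStmt → CLStmt` (second moment, `CL2/Main.lean`).
-/

set_option autoImplicit false
set_option linter.unusedSectionVars false

open Matrix Finset
open scoped Kronecker ComplexOrder MatrixOrder Matrix.Norms.L2Operator InnerProductSpace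

namespace Crest.Agent.N336.P.CL2

open Crest.MathPhysics.LatticeSpin Crest.Agent.N336.Q

/-- uniform average -/
noncomputable def av {W E : Type} [Fintype W] [AddCommMonoid E] [Module ℂ E] (f : W → E) : E :=
  (Fintype.card W : ℂ)⁻¹ • ∑ w, f w

/-- the vector of `|a⟩⟨b|` -/
noncomputable def vv {n : Type} (a b : Q.Vec n) : Q.Vec (n × n) :=
  WithLp.toLp 2 fun p => a p.1 * star (b p.2)

/-- the matrix of `Z ↦ X Z Yᴴ` -/
noncomputable def LR {n : Type} (X Y : Matrix n n ℂ) : Matrix (n × n) (n × n) ℂ :=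
  X ⊗ₖ Y.map star

section

variable {Rg Pa : Type} [Fintype Rg] [DecidableEq Rg] [Fintype Pa] [DecidableEq Pa] {q : ℕ}

/-- `f` depends only on the registers owned by `p` -/
def Ms (o : Rg → Pa) (p : Pa) (f : (Rg → Fin q) → ℂ) : Prop :=
  ∀ σ σ', (∀ r, o r = p → σ r = σ' r) → f σ = f σ'

/-- `T` maps products of party functions to sums over `V` labels of such products; the parties
outside `I` do nothing -/
def PA (I : Finset Pa) (o o' : Rg → Pa) (V : ℕ) (T : Op Rg q) : Prop :=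
  ∃ Φ : Pa → Fin V → ((Rg → Fin q) → ℂ) → (Rg → Fin q) → ℂ,
    (∀ p, p ∉ I → ∀ x f, Φ p x f = f) ∧ (∀ p x f, Ms o p f → Ms o' p (Φ p x f)) ∧
    ∀ f : Pa → (Rg → Fin q) → ℂ, (∀ p, Ms o p (f p)) →
      ∀ σ, (T *ᵥ fun τ => ∏ p, f p τ) σ = ∑ x, ∏ p, Φ p x (f p) σ

/-- an unbiased random approximant of `T` in product form with small covariance -/
def Apx (I : Finset Pa) (o o' : Rg → Pa) (V : ℕ) (T : Op Rg q) (δ : ℝ) : Prop :=
  ∃ (W : Type) (_ : Fintype W) (_ : Nonempty W) (Th : W → Op Rg q),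
    (∀ w, PA I o o' V (Th w) ∧
      Supp (d := fun _ : Rg => Fin q) (univ.filter fun r => o r ∈ I) (Th w)) ∧
    av Th = T ∧ ‖av (fun w => LR (Th w) (Th w)) - LR T T‖ ≤ δ

/-- the vector after the first `t` operators -/
noncomputable def runT (T : ℕ → Op Rg q) (ψ₀ : Vec Rg q) : ℕ → Vec Rg q
  | 0 => ψ₀
  | t + 1 => ap (T t) (runT T ψ₀ t)

/-- the partial trace of `|a⟩⟨b|` over the registers outside `ι` -/
noncomputable def XX {Λ : Type} [Fintype Λ] [DecidableEq Λ] (ι : Λ ↪ Rg) (a b : Vec Rg q) :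
    Q.Vec ((Λ → Fin q) × (Λ → Fin q)) :=
  WithLp.toLp 2 fun p => ∑ j : Rest (rg ι) fun _ : Rg => Fin q,
    a ((eqv ι fun _ : Rg => Fin q).symm (p.1, j)) *
      star (b ((eqv ι fun _ : Rg => Fin q).symm (p.2, j)))

end

/-- approximants of a gate -/
def ApxStmt : Prop :=
  ∀ (q : ℕ) (Rg Pa : Type) [Fintype Rg] [DecidableEq Rg] [Fintype Pa] [DecidableEq Pa]
    [Nonempty (Fin q)] (g : Gate Rg Pa q) (B ℓ k : ℕ) (o o' : Rg → Pa),
    g.I.Nonempty → g.Valid B ℓ o o' → 1 ≤ k → 4 * ℓ ≤ k →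
    Apx g.I o o' (B * k ^ (2 * ℓ)) g.op (B * (4 * ℓ / k))

/-- product form of a column -/
def PFStmt : Prop :=
  ∀ (q : ℕ) (Λ Rg Pa : Type) [Fintype Λ] [DecidableEq Λ] [Fintype Rg] [DecidableEq Rg]
    [Fintype Pa] [DecidableEq Pa] [Nonempty (Fin q)] (n V : ℕ) (fin : Λ → Pa)
    (I : ℕ → Finset Pa) (own : ℕ → Rg → Pa) (ι : Λ ↪ Rg) (T T' : ℕ → Op Rg q) (ψ₀ : Vec Rg q)
    (f : Pa → (Rg → Fin q) → ℂ) (s₀ : Λ → Fin q),
    (∀ t < n, PA (I t) (own t) (own (t + 1)) V (T t) ∧ PA (I t) (own t) (own (t + 1)) V (T' t)) →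
    (∀ p, Ms (own 0) p (f p)) → (∀ σ, ψ₀ σ = ∏ p, f p σ) → (∀ z, own n (ι z) = fin z) →
    ∃ c : ℝ, 0 < c ∧ PartyForm n (V ^ 2) fin I
      fun s => c * XX ι (runT T ψ₀ n) (runT T' ψ₀ n) (s, s₀)

end Crest.Agent.N336.P.CL2
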