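import Crest.Agent.N336.P.CL2.Defs

/-!
# Row 336, compression lemma: product form of a column (helper61)
-/

set_option autoImplicit false
set_option linter.unusedSectionVars false

open Matrix Finset

namespace Crest.Agent.N336.P.CL2

open Crest.MathPhysics.LatticeSpin Crest.Agent.N336.Q

namespace PF

variable {Rg Pa : Type} [Fintype Rg] [DecidableEq Rg] [Fintype Pa] [DecidableEq Pa] {q : ℕ}

theorem run {V : ℕ} {I : ℕ → Finset Pa} {own : ℕ → Rg → Pa} {T : ℕ → Op Rg q} {ψ₀ : Vec Rg q}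
    {f : Pa → (Rg → Fin q) → ℂ} (h0 : ∀ p, Ms (own 0) p (f p)) (hψ : ∀ σ, ψ₀ σ = ∏ p, f p σ)
    (n : ℕ) (h : ∀ t < n, PA (I t) (own t) (own (t + 1)) V (T t)) :
    ∃ F : Pa → (Fin n → Fin V) → (Rg → Fin q) → ℂ, (∀ p x, Ms (own n) p (F p x)) ∧
      (∀ p x x', (∀ g : Fin n, p ∈ I g → x g = x' g) → F p x = F p x') ∧
      ∀ σ, runT T ψ₀ n σ = ∑ x, ∏ p, F p x σ := by
  induction n with
  | zero => exact ⟨fun p _ => f p, fun p _ => h0 p, fun _ _ _ _ => rfl, fun σ => by
      simpa [runT] using hψ σ⟩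
  | succ n ih =>
    obtain ⟨F, h1, h2, h3⟩ := ih fun t ht => h t (by omega)
    obtain ⟨Φ, k1, k2, k3⟩ := h n (by omega)
    refine ⟨fun p x => Φ p (x (Fin.last n)) (F p (Fin.init x)), fun p x => k2 _ _ _ (h1 _ _),
      fun p x x' hx => ?_, fun σ => ?_⟩
    · have e : F p (Fin.init x) = F p (Fin.init x') := h2 _ _ _ fun g hg => hx g.castSucc hg
      by_cases hp : p ∈ I n
      · simp only [e, hx (Fin.last n) hp]
      · simp only [e, k1 p hp]
    · have e : (runT T ψ₀ n).ofLp = ∑ x, fun τ => ∏ p, F p x τ := by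
        funext τ
        rw [Finset.sum_apply]
        exact h3 τ
      have e2 : runT T ψ₀ (n + 1) σ = (T n *ᵥ (runT T ψ₀ n).ofLp) σ := rfl
      rw [e2, e, mulVec_sum, Finset.sum_apply,
        ← (Fin.snocEquiv fun _ => Fin V).sum_comp, Fintype.sum_prod_type_right]
      refine sum_congr rfl fun x _ => (k3 _ (fun p => h1 p x) σ).trans (sum_congr rfl fun a _ => ?_)
      simp [Fin.snocEquiv]

theorem av_mul {J α : Type} [Fintype J] [DecidableEq J] [Fintype α] [Nonempty α] (N : Finset J)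
    (f g : (J → α) → ℂ) (hf : ∀ s t, (∀ j ∈ N, s j = t j) → f s = f t)
    (hg : ∀ s t, (∀ j ∉ N, s j = t j) → g s = g t) :
    av (fun s => f s * g s) = av f * av g := by
  have hinv : Function.Involutive fun u : (J → α) × (J → α) =>
      (N.piecewise u.1 u.2, N.piecewise u.2 u.1) := fun u => by
    ext j <;> by_cases hj : j ∈ N <;> simp [hj]
  have h1 : (∑ s, f s) * ∑ t, g t = Fintype.card (J → α) * ∑ s, f s * g s := by
    rw [sum_mul_sum, ← Fintype.sum_prod_type', ← Equiv.sum_comp hinv.toPerm, Fintype.sum_prod_type,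
      mul_sum]
    refine sum_congr rfl fun s _ => ?_
    rw [← nsmul_eq_mul, ← card_univ, ← sum_const]
    refine sum_congr rfl fun t _ => ?_
    exact congrArg₂ _ (hf _ _ fun j hj => by simp [hj]) (hg _ _ fun j hj => by simp [hj])
  have h2 : (Fintype.card (J → α) : ℂ) ≠ 0 := Nat.cast_ne_zero.2 Fintype.card_ne_zero
  simp only [av, smul_eq_mul]
  rw [mul_mul_mul_comm, h1]
  field_simp

theorem av_prod {J α : Type} [Fintype J] [DecidableEq J] [Fintype α] [Nonempty α] (o : J → Pa)
    (h : Pa → (J → α) → ℂ) (hh : ∀ p s t, (∀ j, o j = p → s j = t j) → h p s = h p t)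
    (S : Finset Pa) : av (fun s => ∏ p ∈ S, h p s) = ∏ p ∈ S, av (h p) := by
  induction S using Finset.induction_on with
  | empty =>
    have h2 : (Fintype.card (J → α) : ℂ) ≠ 0 := Nat.cast_ne_zero.2 Fintype.card_ne_zero
    simp only [av, prod_empty, sum_const, card_univ, nsmul_eq_mul, mul_one, smul_eq_mul]
    exact inv_mul_cancel₀ h2
  | insert p S hp ih =>
    simp only [prod_insert hp]
    rw [av_mul (univ.filter fun j => o j = p) (h p) (fun s => ∏ p ∈ S, h p s)
      (fun s t hs => hh p s t fun j hj => hs j (by simp [hj]))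
      (fun s t hs => prod_congr rfl fun p' hp' => hh p' s t fun j hj => hs j (by
        simp only [mem_filter, mem_univ, true_and, hj]
        rintro rfl
        exact hp hp')), ih]

end PF

open PF in
theorem pf : PFStmt := by
  intro q Λ Rg Pa _ _ _ _ _ _ _ n V fin I own ι T T' ψ₀ f s₀ hT h0 hψ hfin
  obtain ⟨F, a1, a2, a3⟩ := PF.run h0 hψ n fun t ht => (hT t ht).1
  obtain ⟨F', b1, b2, b3⟩ := PF.run h0 hψ n fun t ht => (hT t ht).2
  let e : Fin (V ^ 2) ≃ Fin V × Fin V := (finCongr (pow_two V)).trans finProdFinEquiv.symm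
  let E := (eqv ι fun _ : Rg => Fin q).symm
  have hE : ∀ p s s' j j', (∀ z, fin z = p → s z = s' z) →
      (∀ r : {r // r ∉ rg ι}, own n r = p → j r = j' r) →
      ∀ r, own n r = p → E (s, j) r = E (s', j') r := fun p s s' j j' hs hj r hr => by
    by_cases h : r ∈ rg ι
    · obtain ⟨z, rfl⟩ := mem_rg.1 h
      exact (congrFun (res_symm ι (s, j)) z).trans ((hs z ((hfin z).symm.trans hr)).trans
        (congrFun (res_symm ι (s', j')) z).symm)
    · exact (congrFun (off_symm ι (s, j)) ⟨r, h⟩).trans ((hj ⟨r, h⟩ hr).trans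
        (congrFun (off_symm ι (s', j')) ⟨r, h⟩).symm)
  refine ⟨(Fintype.card (Rest (rg ι) fun _ : Rg => Fin q) : ℝ)⁻¹,
    inv_pos.2 (Nat.cast_pos.2 Fintype.card_pos), fun p s x => av fun j =>
      F p (fun g => (e (x g)).1) (E (s, j)) * star (F' p (fun g => (e (x g)).2) (E (s₀, j))),
    fun p s s' x x' hs hx => ?_, fun s => ?_⟩
  · dsimp only
    rw [a2 p _ (fun g => (e (x' g)).1) fun g hg => by rw [hx g hg],
      b2 p _ (fun g => (e (x' g)).2) fun g hg => by rw [hx g hg]]
    exact congrArg av (funext fun j => by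
      rw [a1 p _ _ _ (hE p s s' j j hs fun _ _ => rfl)])
  · have h1 := Fintype.sum_equiv (((Equiv.refl (Fin n)).arrowCongr e).trans
      (Equiv.arrowProdEquivProdArrow _ _ _))
      (fun x => ∏ p, av fun j =>
        F p (fun g => (e (x g)).1) (E (s, j)) * star (F' p (fun g => (e (x g)).2) (E (s₀, j))))
      (fun x => ∏ p, av fun j => F p x.1 (E (s, j)) * star (F' p x.2 (E (s₀, j)))) fun _ => rfl
    have h2 : ∀ x x', ∏ p, (av fun j => F p x (E (s, j)) * star (F' p x' (E (s₀, j)))) =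
        av fun j => ∏ p, F p x (E (s, j)) * star (F' p x' (E (s₀, j))) := fun x x' =>
      (av_prod (fun r : {r // r ∉ rg ι} => own n r)
        (fun p j => F p x (E (s, j)) * star (F' p x' (E (s₀, j)))) (fun p j j' hj => by
          rw [a1 p _ _ _ (hE p s s j j' (fun _ _ => rfl) hj),
            b1 p _ _ _ (hE p s₀ s₀ j j' (fun _ _ => rfl) hj)]) univ).symm
    dsimp only
    rw [h1]
    simp only [h2]
    simp only [av, smul_eq_mul, ← mul_sum, Complex.ofReal_inv, Complex.ofReal_natCast]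
    congr 1
    rw [sum_comm]
    refine sum_congr rfl fun j _ => ?_
    rw [a3, b3, star_sum, sum_mul_sum, Fintype.sum_prod_type]
    simp only [star_prod, prod_mul_distrib]
    rfl

end Crest.Agent.N336.P.CL2
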